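import Vale.Agent.P144Q.Defs
import Vale.Agent.P144G.Uq2

/-!
The boundary condition from the `H`-function, and uniqueness.
-/

namespace Vale.Agent.P144Q.R

open Filter Topology Metric Set Complex
open Vale.Agent.P144G (Conf XX BdD bdD_of unif_of cont_zero ev_ring)

variable {D : Set ℂ}

theorem conf (c : Cm D) : Conf c.ψ D where
  diff := c.ψd
  inj := fun w hw w' hw' h => by rw [← c.ri w hw, h, c.ri w' hw']
  img := Subset.antisymm c.ψm.image_subset fun z hz => ⟨c.φ z, c.φm hz, c.li z hz⟩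
  ne := fun w hw h => by
    have h1 := (c.ψd.differentiableAt (isOpen_ball.mem_nhds hw)).hasDerivAt
    have h2 := (c.φd.differentiableAt (c.op.mem_nhds (c.ψm hw))).hasDerivAt
    have h3 := (h2.comp w h1).unique ((hasDerivAt_id w).congr_of_eventuallyEq
      (by filter_upwards [isOpen_ball.mem_nhds hw] with y hy using c.ri y hy))
    rw [h, mul_zero] at h3
    exact zero_ne_one h3

theorem bX_eq (c : Cm D) (F : ℂ → ℂ) (w : ℂ) : c.bX F w = XX c.ψ F w := by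
  unfold Cm.bX XX; ring

theorem le_rim {ξ : ℂ} (hξ : ‖ξ‖ = 1) : 𝓝[ball 0 1] ξ ≤ rim := by
  rw [rim, ← tendsto_iff_comap, tendsto_nhdsWithin_iff]
  refine ⟨?_, ?_⟩
  · rw [← hξ]
    exact (continuous_norm.tendsto ξ).mono_left nhdsWithin_le_nhds
  · filter_upwards [self_mem_nhdsWithin] with w hw using mem_ball_zero_iff.1 hw

theorem ev_rim {r : ℝ} (hr : r < 1) : ∀ᶠ w in rim, r < ‖w‖ ∧ ‖w‖ < 1 :=
  preimage_mem_comap (Ioo_mem_nhdsLT hr)

theorem bdc_iff (c : Cm D) (F : ℂ → ℂ) : c.BdC F ↔ BdD c.ψ F := by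
  unfold Cm.BdC
  simp only [bX_eq]
  refine ⟨fun h ξ hξ => h.mono_left (le_rim hξ), fun h => ?_⟩
  rw [Metric.tendsto_nhds]
  intro ε hε
  obtain ⟨r, hr, hb⟩ := unif_of h (half_pos hε)
  filter_upwards [ev_rim hr] with w hw
  rw [Real.dist_eq, sub_zero, abs_of_nonneg (sub_nonneg.2 (re_le_norm _))]
  linarith [hb w hw.1 hw.2]

/-- **Uniqueness.** -/
theorem uni : SUni := by
  intro D c κ κ' _ _ ζ ω q q1 q2 T hζ hω hinj hT hTD hTM hq he hc1 hc2 b1 b2 r1 r2 hs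
  exact cont_zero (conf c) hζ hω hinj hT hTD hTM hq he hc1 hc2 ((bdc_iff c _).1 b1)
    ((bdc_iff c _).1 b2) r1 r2 hs

/-- Every point of the circle is approached from some boundary point. -/
theorem exists_bd (c : Cm D) (hb : Bornology.IsBounded D) {ξ : ℂ} (hξ : ‖ξ‖ = 1) :
    ∃ p ∈ frontier D, ∀ δ > (0 : ℝ), ∃ w ∈ ball (0 : ℂ) 1, ‖w - ξ‖ < δ ∧ ‖c.ψ w - p‖ < δ := by
  have hne : (𝓝[ball (0 : ℂ) 1] ξ).NeBot := by
    rw [← mem_closure_iff_nhdsWithin_neBot, closure_ball _ one_ne_zero, mem_closedBall_zero_iff]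
    exact hξ.le
  obtain ⟨p, hp, hcl⟩ := hb.isCompact_closure.exists_mapClusterPt (u := c.ψ)
    (f := 𝓝[ball (0 : ℂ) 1] ξ) (by
      rw [le_principal_iff, mem_map]
      filter_upwards [self_mem_nhdsWithin] with w hw using subset_closure (c.ψm hw))
  have hfr : ∀ s ∈ 𝓝 p, ∃ᶠ w in 𝓝[ball (0 : ℂ) 1] ξ, c.ψ w ∈ s := mapClusterPt_iff_frequently.1 hcl
  refine ⟨p, ?_, fun δ hδ => ?_⟩
  · rw [c.op.frontier_eq]
    refine ⟨hp, fun hD => ?_⟩
    obtain ⟨ε, hε, hs⟩ := nhds_basis_closedBall.mem_iff.1 (c.op.mem_nhds hD)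
    obtain ⟨r, hr, hK⟩ := (conf c).away (isCompact_closedBall p ε) hs
    obtain ⟨w, h1, h2⟩ := ((hfr _ (closedBall_mem_nhds p hε)).and_eventually (ev_ring hr hξ)).exists
    exact hK w h2.1 h2.2 h1
  · obtain ⟨w, h1, h2, h3⟩ := ((hfr _ (ball_mem_nhds p hδ)).and_eventually
      (inter_mem self_mem_nhdsWithin (nhdsWithin_le_nhds (ball_mem_nhds ξ hδ)))).exists
    rw [mem_ball, dist_eq_norm] at h1 h3
    exact ⟨w, h2, h3, h1⟩

/-- **The boundary condition from the `H`-function.** -/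
theorem bdc : SBdc := by
  intro D c hb huc K h F hK hKD hF hd hv hs
  rw [bdc_iff]
  refine bdD_of (conf c) ⟨K, hK, hKD, fun z hz hzK =>
    ⟨hF.differentiableAt ((c.op.sdiff hK.isClosed).mem_nhds ⟨hz, hzK⟩), hd z ⟨hz, hzK⟩⟩⟩
    (fun ε hε => ?_) fun ξ hξ η hη => ?_
  · obtain ⟨η, hη, hv⟩ := hv ε hε
    have hs : {z | η ≤ infDist z Dᶜ} ⊆ D := fun z hz => by
      by_contra hD
      have h1 : η ≤ infDist z Dᶜ := hz
      rw [infDist_zero_of_mem (show z ∈ Dᶜ from hD)] at h1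
      linarith
    exact ⟨_, isCompact_of_isClosed_isBounded
      (isClosed_le continuous_const (continuous_infDist_pt _)) (hb.subset hs), hs,
      fun z hz hzK => hv z hz (not_le.1 hzK)⟩
  · obtain ⟨δ, hδ, hu⟩ := Metric.uniformContinuousOn_iff.1 huc _ (half_pos hη)
    obtain ⟨p, hp, hw⟩ := exists_bd c hb hξ
    obtain ⟨z, hz, h1, h2⟩ := hs p hp _ (half_pos hδ)
    obtain ⟨w, a1, a2, a3⟩ := hw _ (lt_min (half_pos hη) (half_pos hδ))
    have a4 := hu z hz _ (c.ψm a1) (by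
      rw [dist_eq_norm]
      linarith [norm_sub_le_norm_sub_add_norm_sub z p (c.ψ w), norm_sub_rev p (c.ψ w),
        min_le_right (η / 2) (δ / 2)])
    rw [c.ri w a1, dist_eq_norm] at a4
    refine ⟨c.φ z, mem_ball_zero_iff.1 (c.φm hz), ?_, by rwa [c.li z hz]⟩
    linarith [norm_sub_le_norm_sub_add_norm_sub (c.φ z) w ξ, min_le_left (η / 2) (δ / 2)]

end Vale.Agent.P144Q.R
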