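import Vale.Agent.P144Q.R.Uc
import Vale.Agent.P144Q.L.Fat
import Vale.Agent.P144Q.Cm

/-!
The conformal map for the class with slopes depending on the chart.
-/

namespace Vale.Agent.P144Q.R

open Metric Set Complex
open Vale.Agent.P144Q.L (ip ip_le ip_add ip_smul Chart Lip3)

variable {D : Set ℂ}

theorem oc_of_chart {γ r : ℝ} {p₀ : ℂ} (h : Chart D γ r p₀) :
    ∃ μ : ℂ, ‖μ‖ = 1 ∧ OC D (min (γ / 2) 1) r p₀ μ := by
  obtain ⟨κ, S₁, S₂, ν₁, ν₂, μ, h0, h1, n1, n2, n3, a1, a2, c1, c2, he⟩ := h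
  refine ⟨μ, n3, fun y hy hyr t ht x hx hxr => ?_⟩
  have key : ∀ (S : Set ℂ) (ν : ℂ), ‖ν‖ = 1 → κ + γ ≤ ip μ ν → P144Z.Cone S ν κ → y ∈ S →
      x ∈ S := by
    intro S ν hν ha hc hS
    set e := x - (y + t * μ) with he
    have b0 : ‖e‖ ≤ γ / 2 * t := hx.le.trans (mul_le_mul_of_nonneg_right (min_le_left _ _) ht.le)
    have b1 : x = y + (t * μ + e) := by rw [he]; ring
    rw [b1]
    refine hc y hS _ ?_
    have b2 : ‖t * μ + e‖ ≤ t + ‖e‖ := (norm_add_le _ _).trans_eq (by rw [norm_rmul n3 ht.le])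
    have b3 := (abs_le.1 (ip_le e hν)).1
    show κ * ‖t * μ + e‖ ≤ ip (t * μ + e) ν
    rw [ip_add, ip_smul]
    nlinarith [mul_le_mul_of_nonneg_left b2 h0, mul_le_mul_of_nonneg_left ha ht.le,
      norm_nonneg e]
  have hy' : y ∈ S₁ ∩ S₂ ∩ ball p₀ r := he ▸ ⟨hy, by rwa [mem_ball, dist_eq_norm]⟩
  have hx' : x ∈ D ∩ ball p₀ r := he.symm ▸
    ⟨⟨key S₁ ν₁ n1 a1 c1 hy'.1.1, key S₂ ν₂ n2 a2 c2 hy'.1.2⟩, by rwa [mem_ball, dist_eq_norm]⟩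
  exact hx'.1

theorem uc3 (c : Cm D) (h : Lip3 D) : UniformContinuousOn c.φ D := by
  obtain ⟨-, hb, γ, r, hγ, hr, h⟩ := h
  exact uc_of_oc c hb (lt_min (half_pos hγ) one_pos) (min_le_right _ _) hr
    fun p₀ _ => oc_of_chart (h p₀)

theorem map3 (h : Lip3 D) (hs : IsSimplyConnected D) :
    ∃ c : Cm D, UniformContinuousOn c.φ D := by
  obtain ⟨c⟩ := M.cm h.1 h.2.1 hs
  exact ⟨c, uc3 c h⟩

theorem map : SMap := fun _ h hs => map3 (L.lip3_of_lip2 h) hs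

end Vale.Agent.P144Q.R
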