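import Vale.Agent.P144Q.Defs
import Mathlib.Analysis.Complex.Schwarz

/-!
The conformal map of a Lipschitz domain onto the disc is uniformly continuous.
-/

namespace Vale.Agent.P144Q.R

open Filter Topology Metric Set Complex
open scoped ComplexConjugate

/-- The Schwarz lemma for functions with positive real part. -/
theorem schwarz_re {f : ℂ → ℂ} {c y : ℂ} {R : ℝ} (hf : DifferentiableOn ℂ f (ball c R))
    (hp : ∀ w ∈ ball c R, 0 < (f w).re) (hy : y ∈ ball c R) :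
    ‖f y - f c‖ * R ≤ ‖y - c‖ * ‖f y + conj (f c)‖ := by
  have hR : 0 < R := nonempty_ball.1 ⟨y, hy⟩
  have hc := hp c (mem_ball_self hR)
  have hne : ∀ w ∈ ball c R, f w + conj (f c) ≠ 0 := fun w hw h => by
    have := congrArg re h
    rw [add_re, conj_re, zero_re] at this
    linarith [hp w hw]
  have h1 := dist_le_div_mul_dist_of_mapsTo_ball (R₂ := 1)
    (f := fun w => (f w - f c) / (f w + conj (f c)))
    ((hf.sub_const _).div (hf.add_const _) hne) (fun w hw => by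
      simp only [sub_self, zero_div, mem_closedBall_zero_iff, norm_div]
      rw [div_le_one (norm_pos_iff.2 (hne w hw))]
      refine (abs_le_of_sq_le_sq' ?_ (norm_nonneg _)).2
      rw [Complex.sq_norm, Complex.sq_norm, normSq_apply, normSq_apply]
      simp only [sub_re, sub_im, add_re, add_im, conj_re, conj_im]
      nlinarith [mul_pos hc (hp w hw)]) hy
  simp only [sub_self, zero_div, sub_zero, norm_div, dist_eq_norm] at h1
  rw [div_le_iff₀ (norm_pos_iff.2 (hne y hy))] at h1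
  have h2 := mul_le_mul_of_nonneg_right h1 hR.le
  refine h2.trans_eq ?_
  field_simp

variable {D : Set ℂ}

/-- Oscillation in a disc inside the domain. -/
theorem osc_ball (c : Cm D) {z y : ℂ} {d : ℝ} (hd : 0 < d) (hb : ball z d ⊆ D)
    (hy : ‖y - z‖ ≤ d / 2) : ‖c.φ y - c.φ z‖ ≤ 2 * (1 - ‖c.φ z‖) := by
  obtain ⟨u, hu, he⟩ := RCLike.exists_norm_eq_mul_self (c.φ z)
  have he' : u * c.φ z = (‖c.φ z‖ : ℂ) := he.symm
  have hlt : ∀ w ∈ ball z d, ‖c.φ w‖ < 1 := fun w hw => mem_ball_zero_iff.1 (c.φm (hb hw))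
  have h1 := schwarz_re (f := fun w => 1 - u * c.φ w) (c := z) (y := y) (R := d)
    (((c.φd.mono hb).const_mul u).const_sub 1) (fun w hw => by
      have a1 := re_le_norm (u * c.φ w)
      rw [norm_mul, hu, one_mul] at a1
      rw [sub_re, one_re]
      linarith [hlt w hw]) (by rw [mem_ball, dist_eq_norm]; linarith)
  have e1 : ‖1 - u * c.φ y - (1 - u * c.φ z)‖ = ‖c.φ y - c.φ z‖ := by
    rw [show 1 - u * c.φ y - (1 - u * c.φ z) = -u * (c.φ y - c.φ z) by ring, norm_mul, norm_neg,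
      hu, one_mul]
  have hz := hlt z (mem_ball_self hd)
  have e2 : ‖1 - u * c.φ y + conj (1 - u * c.φ z)‖ ≤ ‖c.φ y - c.φ z‖ + 2 * (1 - ‖c.φ z‖) := by
    have a1 : 1 - u * c.φ y + conj (1 - u * c.φ z) =
        (1 - u * c.φ y - (1 - u * c.φ z)) + ((2 * (1 - ‖c.φ z‖) : ℝ) : ℂ) := by
      rw [he', map_sub, map_one, conj_ofReal]; push_cast; ring
    rw [a1]
    refine (norm_add_le _ _).trans ?_
    rw [e1, norm_real, Real.norm_of_nonneg (by linarith)]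
  rw [e1] at h1
  have h2 := mul_le_mul hy e2 (norm_nonneg _) (by positivity)
  nlinarith

theorem deriv_ball (c : Cm D) {z : ℂ} {d : ℝ} (hd : 0 < d) (hb : ball z d ⊆ D) :
    ‖deriv c.φ z‖ ≤ 2 * (1 - ‖c.φ z‖) / (d / 2) :=
  norm_deriv_le_div_of_mapsTo_ball
    (c.φd.mono ((ball_subset_ball (half_le_self hd.le)).trans hb))
    (fun y hy => by
      rw [mem_ball, dist_eq_norm] at hy
      rw [mem_closedBall, dist_eq_norm]
      exact osc_ball c hd hb hy.le) (half_pos hd)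

/-- The barrier given by a segment outside the domain. -/
theorem bar_seg (c : Cm D) {p e z : ℂ} (hs : ∀ t : ℝ, 0 ≤ t → t ≤ 1 → p - t * e ∉ D)
    (hz : z ∈ D) : (1 - ‖c.φ z‖) ^ 2 * (‖c.ψ 0 - p‖ * ‖z - (p - e)‖) ≤
      4 * (‖z - p‖ * ‖c.ψ 0 - (p - e)‖) := by
  have h1 : ∀ y ∈ D, y - (p - e) ≠ 0 := fun y hy h =>
    hs 1 zero_le_one le_rfl (by rw [ofReal_one, one_mul, ← sub_eq_zero.1 h]; exact hy)
  set m : ℂ → ℂ := fun y => (y - p) / (y - (p - e)) with hm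
  have h2 : ∀ y ∈ D, m y ∈ slitPlane := by
    intro y hy
    by_contra hcon
    rw [mem_slitPlane_iff, not_or, not_lt, not_not] at hcon
    set s : ℝ := -(m y).re with hs'
    have a0 : 0 ≤ s := by linarith [hcon.1]
    have a1 : m y = -(s : ℂ) := Complex.ext (by simp [hs']) (by simp [hcon.2])
    have a2 : y - p = -(s : ℂ) * (y - (p - e)) := by
      rw [← a1, hm, div_mul_cancel₀ _ (h1 y hy)]
    have a3 : (1 + s : ℂ) ≠ 0 := by exact_mod_cast (by linarith : (1 + s : ℝ) ≠ 0)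
    refine hs (s / (1 + s)) (by positivity) ((div_le_one (by linarith)).2 (by linarith)) ?_
    have a4 : p - ((s / (1 + s) : ℝ) : ℂ) * e = y := by
      push_cast
      field_simp
      linear_combination -a2
    rwa [a4]
  set f : ℂ → ℂ := fun w => exp (log (m (c.ψ w)) / 2) with hf
  have h3 : ∀ w ∈ ball (0 : ℂ) 1, ‖f w‖ ^ 2 = ‖m (c.ψ w)‖ := by
    intro w hw
    rw [← norm_pow, hf, ← exp_nat_mul]
    congr 1
    rw [show ((2 : ℕ) : ℂ) * (log (m (c.ψ w)) / 2) = log (m (c.ψ w)) by push_cast; ring,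
      exp_log (slitPlane_ne_zero (h2 _ (c.ψm hw)))]
  have hw := c.φm hz
  have h4 := schwarz_re (f := f) (c := 0) (R := 1) (fun w hw => by
      have a1 := c.ψd.differentiableAt (isOpen_ball.mem_nhds hw)
      exact ((((a1.sub_const p).div (a1.sub_const _) (h1 _ (c.ψm hw))).clog
        (h2 _ (c.ψm hw))).div_const 2).cexp.differentiableWithinAt)
    (fun w hw => by
      simp only [hf, exp_re, div_ofNat_im, log_im]
      refine mul_pos (Real.exp_pos _) (Real.cos_pos_of_mem_Ioo ⟨?_, ?_⟩)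
      · linarith [neg_pi_lt_arg (m (c.ψ w))]
      · linarith [(arg_le_pi _).lt_of_ne (slitPlane_arg_ne_pi (h2 _ (c.ψm hw)))]) hw
  rw [mul_one, sub_zero] at h4
  have h5 : ‖f (c.φ z) + conj (f 0)‖ ≤ ‖f (c.φ z)‖ + ‖f 0‖ :=
    (norm_add_le _ _).trans_eq (by rw [norm_conj])
  have h6 := norm_sub_norm_le (f 0) (f (c.φ z))
  rw [norm_sub_rev] at h6
  have hw1 := mem_ball_zero_iff.1 hw
  have h7 : (1 - ‖c.φ z‖) * ‖f 0‖ ≤ 2 * ‖f (c.φ z)‖ := by
    nlinarith [mul_le_mul_of_nonneg_left h5 (norm_nonneg (c.φ z)), norm_nonneg (f (c.φ z))]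
  have h8 := pow_le_pow_left₀ (mul_nonneg (by linarith) (norm_nonneg _)) h7 2
  have h0 : (0 : ℂ) ∈ ball (0 : ℂ) 1 := mem_ball_self one_pos
  rw [mul_pow, mul_pow, h3 0 h0, h3 _ hw, c.li z hz] at h8
  simp only [hm, norm_div] at h8
  have n1 := norm_pos_iff.2 (h1 _ (c.ψm h0))
  have n2 := norm_pos_iff.2 (h1 _ hz)
  rw [← mul_div_assoc, ← mul_div_assoc, div_le_div_iff₀ n1 n2] at h8
  linarith

/-- The open cone condition in the direction `μ` near `p₀`. -/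
def OC (D : Set ℂ) (κ r : ℝ) (p₀ μ : ℂ) : Prop := ∀ y ∈ D, ‖y - p₀‖ < r → ∀ t > (0 : ℝ), ∀ x : ℂ,
  ‖x - (y + t * μ)‖ < κ * t → ‖x - p₀‖ < r → x ∈ D

theorem oc_of_lip (h : Lip2 D) :
    ∃ κ r : ℝ, 0 < κ ∧ κ ≤ 1 ∧ 0 < r ∧ ∀ p₀, ∃ μ : ℂ, ‖μ‖ = 1 ∧ OC D κ r p₀ μ := by
  obtain ⟨-, -, κ, γ, r, h0, h1, hγ, hr, h⟩ := h
  refine ⟨min (γ / 2) 1, r, lt_min (half_pos hγ) one_pos, min_le_right _ _, hr, fun p₀ => ?_⟩
  obtain ⟨S₁, S₂, ν₁, ν₂, μ, n1, n2, n3, a1, a2, c1, c2, he⟩ := h p₀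
  refine ⟨μ, n3, fun y hy hyr t ht x hx hxr => ?_⟩
  have key : ∀ (S : Set ℂ) (ν : ℂ), ‖ν‖ = 1 → κ + γ ≤ μ.re * ν.re + μ.im * ν.im →
      P144Z.Cone S ν κ → y ∈ S → x ∈ S := by
    intro S ν hν ha hc hS
    set e := x - (y + t * μ) with he
    have b0 : ‖e‖ ≤ γ / 2 * t := hx.le.trans (mul_le_mul_of_nonneg_right (min_le_left _ _) ht.le)
    have b1 : x = y + (t * μ + e) := by rw [he]; ring
    rw [b1]
    refine hc y hS _ ?_
    have b2 : ‖t * μ + e‖ ≤ t + ‖e‖ := (norm_add_le _ _).trans_eq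
      (by rw [norm_mul, n3, norm_real, Real.norm_of_nonneg ht.le, mul_one])
    have b3 : -‖e‖ ≤ e.re * ν.re + e.im * ν.im := by
      have := (abs_le.1 (abs_re_le_norm (e * conj ν))).1
      rw [norm_mul, norm_conj, hν, mul_one, mul_re, conj_re, conj_im] at this
      linarith
    simp only [add_re, add_im, re_ofReal_mul, im_ofReal_mul]
    nlinarith [mul_le_mul_of_nonneg_left b2 h0, mul_le_mul_of_nonneg_left ha ht.le,
      norm_nonneg e]
  have hy' : y ∈ S₁ ∩ S₂ ∩ ball p₀ r := he ▸ ⟨hy, by rwa [mem_ball, dist_eq_norm]⟩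
  have hx' : x ∈ D ∩ ball p₀ r := he.symm ▸
    ⟨⟨key S₁ ν₁ n1 a1 c1 hy'.1.1, key S₂ ν₂ n2 a2 c2 hy'.1.2⟩, by rwa [mem_ball, dist_eq_norm]⟩
  exact hx'.1

theorem norm_rmul {μ : ℂ} (hμ : ‖μ‖ = 1) {t : ℝ} (ht : 0 ≤ t) : ‖(t : ℂ) * μ‖ = t := by
  rw [norm_mul, hμ, norm_real, Real.norm_of_nonneg ht, mul_one]

/-- Comparison with a point above the boundary. -/
theorem osc_top (c : Cm D) {κ r C σ₀ : ℝ} {p₀ μ z : ℂ} (k0 : 0 < κ) (k1 : κ ≤ 1) (hμ : ‖μ‖ = 1)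
    (hO : OC D κ r p₀ μ) (hp₀ : p₀ ∉ D) (hC : 0 < C) (hσ : 0 < σ₀) (hσr : 8 * σ₀ ^ 2 ≤ r)
    (hb : ∀ p ∉ D, ‖p - p₀‖ < r / 2 → ∀ y ∈ D, ‖y - p‖ ≤ r / 8 →
      (1 - ‖c.φ y‖) ^ 2 ≤ C ^ 2 * ‖y - p‖)
    (hz : z ∈ D) (hzp : ‖z - p₀‖ < κ ^ 2 * σ₀ ^ 2 / 4) :
    ‖c.φ z - c.φ (p₀ + (σ₀ ^ 2 : ℝ) * μ)‖ ≤ (8 * C / κ + 2 * C) * σ₀ := by
  set T : ℝ := κ * σ₀ ^ 2 / 4 with hT
  have hs2 : 0 < σ₀ ^ 2 := by positivity
  have hT0 : 0 < T := by positivity
  have hT1 : T ≤ σ₀ ^ 2 / 4 := by rw [hT]; nlinarith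
  have hzT : ‖z - p₀‖ < κ * T := by rw [hT]; linarith
  have hkT : κ * T ≤ T := by nlinarith
  have hdn : ∀ t : ℝ, 0 ≤ t → t ≤ T → ‖z - t * μ - p₀‖ ≤ 2 * T := by
    intro t t0 t1
    have := norm_sub_le (z - p₀) (t * μ)
    rw [norm_rmul hμ t0, sub_right_comm] at this
    linarith
  -- the boundary point below `z`
  obtain ⟨τ, τ0, τ1, hp1, hp2⟩ : ∃ τ : ℝ, 0 ≤ τ ∧ τ ≤ T ∧ z - τ * μ ∈ closure D ∧
      z - τ * μ ∉ D := by
    by_contra hcon
    push Not at hcon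
    have a1 : IsPreconnected ((fun t : ℝ => z - t * μ) '' Icc 0 T) :=
      isPreconnected_Icc.image _ (by fun_prop)
    have a2 := a1.subset_of_closure_inter_subset c.op
      ⟨z, ⟨0, ⟨le_rfl, hT0.le⟩, by simp⟩, hz⟩
      (by rintro _ ⟨b1, t, ht, rfl⟩; exact hcon t ht.1 ht.2 b1)
    refine hp₀ (hO _ (a2 ⟨T, ⟨hT0.le, le_rfl⟩, rfl⟩) (by linarith [hdn T hT0.le le_rfl]) T hT0 p₀
      ?_ (by rw [sub_self, norm_zero]; linarith))
    rwa [sub_add_cancel, norm_sub_rev]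
  have τp : 0 < τ := τ0.lt_of_ne fun h => hp2 (by rw [← h]; simpa using hz)
  set p := z - τ * μ with hp
  have hpp : ‖p - p₀‖ ≤ 2 * T := hdn τ τ0 τ1
  have hball : ∀ t : ℝ, 0 < t → t ≤ σ₀ ^ 2 → ball (p + t * μ) (κ * t) ⊆ D := by
    intro t t0 t1 x hx
    rw [mem_ball, dist_eq_norm] at hx
    obtain ⟨y, hy, hyp⟩ := Metric.mem_closure_iff.1 hp1 _
      (lt_min (sub_pos.2 hx) hT0)
    rw [dist_eq_norm] at hyp
    have a1 := hyp.trans_le (min_le_left _ _)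
    have a2 := hyp.trans_le (min_le_right _ _)
    refine hO y hy ?_ t t0 x ?_ ?_
    · linarith [norm_sub_le_norm_sub_add_norm_sub y p p₀, norm_sub_rev y p]
    · have := norm_add_le (x - (p + t * μ)) (p - y)
      rw [show x - (p + t * μ) + (p - y) = x - (y + t * μ) by ring] at this
      linarith
    · have := norm_add₃_le (a := x - (p + t * μ)) (b := (t : ℂ) * μ) (c := p - p₀)
      rw [show x - (p + t * μ) + t * μ + (p - p₀) = x - p₀ by ring, norm_rmul hμ t0.le] at this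
      nlinarith
  have hδ : ∀ σ ∈ Ioc 0 σ₀, σ ^ 2 ≤ σ₀ ^ 2 ∧ 1 - ‖c.φ (p + (σ ^ 2 : ℝ) * μ)‖ ≤ C * σ := by
    intro σ hs
    have a1 : σ ^ 2 ≤ σ₀ ^ 2 := pow_le_pow_left₀ hs.1.le hs.2 2
    have a0 : 0 < σ ^ 2 := pow_pos hs.1 2
    have a2 := hb p hp2 (by linarith) _ (hball _ a0 a1 (mem_ball_self (mul_pos k0 a0)))
      (by rw [add_sub_cancel_left, norm_rmul hμ a0.le]; linarith)
    rw [add_sub_cancel_left, norm_rmul hμ a0.le, ← mul_pow] at a2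
    exact ⟨a1, (abs_le_of_sq_le_sq' a2 (mul_pos hC hs.1).le).2⟩
  have hder : ∀ σ ∈ Ioc 0 σ₀, HasDerivWithinAt (fun s : ℝ => c.φ (p + (s ^ 2 : ℝ) * μ))
      (deriv c.φ (p + (σ ^ 2 : ℝ) * μ) * (2 * σ * μ)) (Ioc 0 σ₀) σ := by
    intro σ hs
    have a0 : 0 < σ ^ 2 := pow_pos hs.1 2
    have a1 := (c.φd.differentiableAt (c.op.mem_nhds (hball _ a0 (hδ σ hs).1
      (mem_ball_self (mul_pos k0 a0))))).hasDerivAt
    have a2 : HasDerivAt (fun s : ℂ => p + s ^ 2 * μ) (2 * σ * μ) (σ : ℂ) := by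
      simpa using ((hasDerivAt_pow 2 (σ : ℂ)).mul_const μ).const_add p
    rw [ofReal_pow] at a1
    have a3 := (HasDerivAt.comp (h := fun s : ℂ => p + s ^ 2 * μ) (σ : ℂ) a1 a2).comp_ofReal
    simpa [Function.comp_def] using a3.hasDerivWithinAt
  have hbd : ∀ σ ∈ Ioc 0 σ₀, ‖deriv c.φ (p + (σ ^ 2 : ℝ) * μ) * (2 * σ * μ)‖ ≤ 8 * C / κ := by
    intro σ hs
    have a0 : 0 < σ ^ 2 := pow_pos hs.1 2
    have a1 := deriv_ball c (mul_pos k0 a0) (hball _ a0 (hδ σ hs).1)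
    have a2 : ‖2 * (σ : ℂ) * μ‖ = 2 * σ := by
      rw [← norm_rmul hμ (mul_pos two_pos hs.1).le]; push_cast; rfl
    have a3 : 2 * (1 - ‖c.φ (p + (σ ^ 2 : ℝ) * μ)‖) / (κ * σ ^ 2 / 2) ≤
        2 * (C * σ) / (κ * σ ^ 2 / 2) :=
      div_le_div_of_nonneg_right (by linarith [(hδ σ hs).2]) (by positivity)
    have := hs.1
    rw [norm_mul, a2]
    refine (mul_le_mul_of_nonneg_right (a1.trans a3) (by positivity)).trans_eq ?_
    field_simp; ring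
  have m1 : √τ ∈ Ioc 0 σ₀ := ⟨Real.sqrt_pos.2 τp, Real.sqrt_le_iff.2 ⟨hσ.le, by linarith⟩⟩
  have m2 : σ₀ ∈ Ioc 0 σ₀ := ⟨hσ, le_rfl⟩
  have i1 := (convex_Ioc 0 σ₀).norm_image_sub_le_of_norm_hasDerivWithin_le hder hbd m2 m1
  have e1 : p + ((√τ ^ 2 : ℝ) : ℂ) * μ = z := by rw [Real.sq_sqrt τ0, hp]; ring
  simp only [e1] at i1
  have i2 : ‖√τ - σ₀‖ ≤ σ₀ := by
    rw [Real.norm_eq_abs, abs_le]; constructor <;> linarith [m1.1, m1.2]
  have i3 := osc_ball c (y := p₀ + (σ₀ ^ 2 : ℝ) * μ) (mul_pos k0 hs2) (hball _ hs2 le_rfl)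
    (by rw [add_sub_add_right_eq_sub, norm_sub_rev]; linarith)
  have i4 := norm_sub_le_norm_sub_add_norm_sub (c.φ z) (c.φ (p + (σ₀ ^ 2 : ℝ) * μ))
    (c.φ (p₀ + (σ₀ ^ 2 : ℝ) * μ))
  rw [norm_sub_rev] at i3
  have i5 := mul_le_mul_of_nonneg_left i2 (show 0 ≤ 8 * C / κ by positivity)
  linarith [(hδ σ₀ m2).2]

/-- Uniform continuity of the conformal map under the cone condition. -/
theorem uc_of_oc (c : Cm D) (hbd : Bornology.IsBounded D) {κ r : ℝ} (k0 : 0 < κ) (k1 : κ ≤ 1)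
    (hr : 0 < r) (hO : ∀ p₀ ∉ D, ∃ μ : ℂ, ‖μ‖ = 1 ∧ OC D κ r p₀ μ) :
    UniformContinuousOn c.φ D := by
  have h0 : c.ψ 0 ∈ D := c.ψm (mem_ball_self one_pos)
  obtain ⟨d, hd, hdD⟩ := Metric.isOpen_iff.1 c.op _ h0
  obtain ⟨B, hB0, hB⟩ := hbd.subset_ball_lt 0 (c.ψ 0)
  set C : ℝ := √(32 * (B + r) / (d * r)) with hC
  have hC0 : 0 < C := Real.sqrt_pos.2 (by positivity)
  have hC2 : C ^ 2 * (d * (r / 8)) = 4 * (B + r) := by
    rw [hC, Real.sq_sqrt (by positivity)]; field_simp; ring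
  rw [Metric.uniformContinuousOn_iff]
  intro ε hε
  set A : ℝ := 8 * C / κ + 2 * C with hA
  have hA0 : 0 < A := by positivity
  set σ₀ : ℝ := min (ε / (4 * A)) (√(r / 8)) with hσ
  have hσ0 : 0 < σ₀ := lt_min (by positivity) (Real.sqrt_pos.2 (by positivity))
  have hσ1 : A * σ₀ ≤ ε / 4 := by
    have := min_le_left (ε / (4 * A)) (√(r / 8))
    rw [← hσ, le_div_iff₀ (by positivity)] at this
    linarith
  have hσ2 : 8 * σ₀ ^ 2 ≤ r := by
    have := pow_le_pow_left₀ hσ0.le (min_le_right (ε / (4 * A)) (√(r / 8))) 2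
    rw [Real.sq_sqrt (by positivity)] at this
    linarith
  set ρ : ℝ := κ ^ 2 * σ₀ ^ 2 / 4 with hρ
  have hρ0 : 0 < ρ := by positivity
  have near : ∀ p₀ ∉ D, ∀ z ∈ D, ∀ z' ∈ D, ‖z - p₀‖ < ρ → ‖z' - p₀‖ < ρ →
      ‖c.φ z - c.φ z'‖ < ε := by
    intro p₀ hp₀ z hz z' hz' a1 a2
    obtain ⟨μ, hμ, hO⟩ := hO p₀ hp₀
    have hb : ∀ p ∉ D, ‖p - p₀‖ < r / 2 → ∀ y ∈ D, ‖y - p‖ ≤ r / 8 →
        (1 - ‖c.φ y‖) ^ 2 ≤ C ^ 2 * ‖y - p‖ := by
      intro p hp b1 y hy b2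
      have n4 : ‖((r / 4 : ℝ) : ℂ) * μ‖ = r / 4 := norm_rmul hμ (by positivity)
      have b3 := bar_seg c (p := p) (e := ((r / 4 : ℝ) : ℂ) * μ) (fun t t0 t1 hD => by
        rcases t0.eq_or_lt with rfl | t2
        · exact hp (by simpa using hD)
        · have c1 : ‖(t : ℂ) * (((r / 4 : ℝ) : ℂ) * μ)‖ ≤ r / 4 := by
            rw [norm_mul, n4, norm_real, Real.norm_of_nonneg t0]; nlinarith
          have c2 := norm_sub_le (p - p₀) ((t : ℂ) * (((r / 4 : ℝ) : ℂ) * μ))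
          rw [sub_right_comm] at c2
          refine hp (hO _ hD (by linarith) (t * (r / 4)) (by positivity) p ?_ (by linarith))
          rw [show p - (p - t * (((r / 4 : ℝ) : ℂ) * μ) + ((t * (r / 4) : ℝ) : ℂ) * μ) = 0 by
            push_cast; ring, norm_zero]
          positivity) hy
      have b4 : d ≤ ‖c.ψ 0 - p‖ := by
        by_contra hcon
        exact hp (hdD (by rw [mem_ball, dist_eq_norm, norm_sub_rev]; exact not_le.1 hcon))
      have b5 : r / 8 ≤ ‖y - (p - ((r / 4 : ℝ) : ℂ) * μ)‖ := by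
        have := norm_sub_le (y - (p - ((r / 4 : ℝ) : ℂ) * μ)) (y - p)
        rw [show y - (p - ((r / 4 : ℝ) : ℂ) * μ) - (y - p) = ((r / 4 : ℝ) : ℂ) * μ by ring,
          n4] at this
        linarith
      have b6 : ‖c.ψ 0 - (p - ((r / 4 : ℝ) : ℂ) * μ)‖ ≤ B + r := by
        have c1 := hB hy
        rw [mem_ball, dist_eq_norm, norm_sub_rev] at c1
        have := norm_add₃_le (a := c.ψ 0 - y) (b := y - p) (c := ((r / 4 : ℝ) : ℂ) * μ)
        rw [show c.ψ 0 - y + (y - p) + ((r / 4 : ℝ) : ℂ) * μ =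
          c.ψ 0 - (p - ((r / 4 : ℝ) : ℂ) * μ) by ring, n4] at this
        linarith
      have b7 := mul_le_mul_of_nonneg_left (mul_le_mul b4 b5 (by positivity) (norm_nonneg _))
        (sq_nonneg (1 - ‖c.φ y‖))
      have b8 := mul_le_mul_of_nonneg_left b6 (norm_nonneg (y - p))
      refine le_of_mul_le_mul_right ?_ (show 0 < d * (r / 8) by positivity)
      rw [mul_right_comm, hC2]
      linarith
    have i1 := osc_top c k0 k1 hμ hO hp₀ hC0 hσ0 hσ2 hb hz a1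
    have i2 := osc_top c k0 k1 hμ hO hp₀ hC0 hσ0 hσ2 hb hz' a2
    rw [norm_sub_rev] at i2
    linarith [norm_sub_le_norm_sub_add_norm_sub (c.φ z) (c.φ (p₀ + (σ₀ ^ 2 : ℝ) * μ)) (c.φ z')]
  have hs : {z | ρ / 2 ≤ infDist z Dᶜ} ⊆ D := fun z hz => by
    by_contra hD
    have h1 : ρ / 2 ≤ infDist z Dᶜ := hz
    rw [infDist_zero_of_mem (show z ∈ Dᶜ from hD)] at h1
    linarith
  obtain ⟨δ, hδ, hu⟩ := Metric.uniformContinuousOn_iff.1
    ((isCompact_of_isClosed_isBounded (isClosed_le continuous_const (continuous_infDist_pt _))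
      (hbd.subset hs)).uniformContinuousOn_of_continuous (c.φd.continuousOn.mono hs)) ε hε
  have hne : (Dᶜ).Nonempty := by
    rw [nonempty_compl]
    rintro rfl
    exact NormedSpace.unbounded_univ ℝ ℂ hbd
  have side : ∀ z ∈ D, ∀ z' ∈ D, dist z z' < ρ / 2 → infDist z Dᶜ < ρ / 2 →
      dist (c.φ z) (c.φ z') < ε := by
    intro z hz z' hz' a1 a2
    obtain ⟨p₀, hp₀, a3⟩ := (infDist_lt_iff hne).1 a2
    rw [dist_eq_norm] at a1 a3 ⊢
    exact near p₀ hp₀ z hz z' hz' (by linarith)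
      (by linarith [norm_sub_le_norm_sub_add_norm_sub z' z p₀, norm_sub_rev z z'])
  refine ⟨min δ (ρ / 2), lt_min hδ (half_pos hρ0), fun z hz z' hz' hd => ?_⟩
  have a1 := hd.trans_le (min_le_left _ _)
  have a2 := hd.trans_le (min_le_right _ _)
  rcases lt_or_ge (infDist z Dᶜ) (ρ / 2) with b1 | b1
  · exact side z hz z' hz' a2 b1
  rcases lt_or_ge (infDist z' Dᶜ) (ρ / 2) with b2 | b2
  · rw [dist_comm] at a2 ⊢
    exact side z' hz' z hz a2 b2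
  · exact hu z b1 z' b2 a1

/-- **Uniform continuity of the conformal map.** -/
theorem uc (c : Cm D) (h : Lip2 D) : UniformContinuousOn c.φ D := by
  obtain ⟨κ, r, k0, k1, hr, hO⟩ := oc_of_lip h
  exact uc_of_oc c h.2.1 k0 k1 hr fun p₀ _ => hO p₀

end Vale.Agent.P144Q.R
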